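import Crest.Agent.X212.Nv5.Main_Mg
import Crest.Agent.X212.Sw87.Two
import Crest.Agent.X212.Nvg56.Cn
import Crest.Agent.X212.Nva22.Main
import Crest.Agent.X212.Rob53.Fo

/-!
# Row 212, layer S (helper87): layer S from its open leaves
-/

set_option autoImplicit false

open Crest.Agent.X212.Bor5.T Crest.Agent.X212.Nv5

namespace Crest.Agent.X212.Sw87

theorem sys1 (hT : ThStmt) (hH : HOut) (hK : NkStmt) (hX : ExtStmt) (hS : TestStmt) (hI : Nv5.IsoStmt)
    (hR : Nv5.RflStmt) (hL : LblStmt) (hB : BuStmt) (hE : ExStmt) : Bor5.Sys0Stmt :=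
  sys0 hT hH (nvStmt two Nvg56.glStmt Nvg56.cnStmt hX hS hI hR hL Nva22.alg (rodS hB hE)) hK Rob53.foStmt hB hE

end Crest.Agent.X212.Sw87
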