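import Crest.Agent.X212.Rfl19.Th
import Crest.Agent.X212.Rw22.Defs
import Crest.Agent.X212.Lab56.Hom
import Crest.Agent.X212.Bor5.Ex
import Crest.Agent.X212.Cab39.Defs

-- ▼ part X212/Sw87/Iso
section

/-!
# Row 212, layer S (helper87): positive diffeomorphisms act on a theory

* `PD A B` : positive diffeomorphisms; `cyC φ` : the cylinder over `B` as a cobordism from `A`;
* `Kc S i j C` : the cobordism `C` belongs to the scene; `hiso` : the modules are isomorphic.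
-/

set_option autoImplicit false
set_option linter.unusedSectionVars false

open Set Filter Topology Function
open scoped ContDiff Manifold
open Crest.Agent.R208 Crest.Agent.R208.F
open Crest.Agent.X212.Bor5.T Crest.Agent.X212.Orx52 Crest.Agent.X212.Rfl19
open Crest.Agent.X212.Dr59 (HZ Cs)
open Crest.Agent.X212.Cyl58 (TP TIso cylT cylIso)
open Crest.Agent.X212.Rod53 (E4)
open Crest.Agent.X212.Lab56 (Cls Dat)
open Crest.Agent.X212.Rw22 (HIso)
open Crest.Agent.X212.Bor5 (K)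

noncomputable section

namespace Crest.Agent.X212.Sw87

/-- a positive diffeomorphism -/
structure PD (A B : O3) where
  φ : A.Y.M ≃ₘ^∞⟮A.Y.I, B.Y.I⟯ B.Y.M
  pos : Pos A.Y.I B.Y.I φ univ A.o B.o

/-- the identity -/
def PD.refl (A : O3) : PD A A := ⟨Diffeomorph.refl _ _ _, pos_id.2 (oriOn A.ori univ).same⟩

/-- the inverse -/
def PD.symm {A B : O3} (φ : PD A B) : PD B A :=
  ⟨φ.φ.symm, (Pos.symm (φ := φ.φ.toPartialDiffeomorph) φ.pos subset_rfl).mono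
    fun y _ => ⟨φ.φ.symm y, trivial, φ.φ.apply_symm_apply y⟩⟩

/-- the composite -/
def PD.trans {A B C : O3} (φ : PD A B) (ψ : PD B C) : PD A C :=
  ⟨φ.φ.trans ψ.φ, ψ.pos.comp φ.pos (fun y _ => ψ.φ.isLocalDiffeomorph y) (fun y _ => φ.φ.isLocalDiffeomorph y)
    (mapsTo_univ _ _)⟩

/-- the cylinder with the model `E4` -/
def cyT (A : O3) : TP E4 where
  P := Glue52.Pc.of A.cyl.P.I A.cyl.P.M (Glue52.linE 4 _ (by
    show Module.finrank ℝ (A.Y.E × ℝ) = 4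
    simp [A.Y.dim]))
  t2 := A.cyl.t2
  sc := A.cyl.sc
  ne := A.cyl.ne
  τ := A.cyl.τ
  cont := A.cyl.cont
  prop := A.cyl.prop

/-- the oriented cylinder -/
def cyW (A : O3) : W4 where
  X := cyT A
  mE := borel _
  bE := @BorelSpace.mk _ _ (borel _) rfl
  ms := borel _
  bs := @BorelSpace.mk _ _ (borel _) rfl
  con := inferInstanceAs (ConnectedSpace (A.Y.M × ℝ))
  o := pr A.o oR
  ori := ori_pr A.ori ori_oR

theorem hz_cyl {A : O3} {k : ℕ} (h : HZ A.Y.I k (univ : Set A.Y.M)) : HZ A.cyl.P.I k (univ : Set A.cyl.P.M) := by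
  have := h.prod_convex isOpen_univ (isOpen_univ : IsOpen (univ : Set ℝ)) convex_univ
  rwa [univ_prod_univ] at this

variable {A B C : Q3}

/-- `φ × id` -/
def PD.cy {A B : O3} (φ : PD A B) {J : Set ℝ} (hJ : IsOpen J) : TIso A.cyl B.cyl J :=
  cylIso (Y := A.Y.pc) (Y' := B.Y.pc) φ.φ hJ

theorem PD.cy_pos {A B : O3} (φ : PD A B) {J : Set ℝ} (hJ : IsOpen J) :
    TPos (φ.cy hJ) (pr A.o oR) (pr B.o oR) := tpos_cylIso (Y := A.Y.pc) (Y' := B.Y.pc) hJ φ.pos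

/-- the same with values in `cyT` -/
def PD.cx {A B : O3} (φ : PD A B) {J : Set ℝ} (hJ : IsOpen J) : TIso A.cyl (cyT B) J :=
  ⟨(φ.cy hJ).φ, (φ.cy hJ).src, (φ.cy hJ).tgt, (φ.cy hJ).tm⟩

/-- the cylinder of a positive diffeomorphism -/
def cyC (φ : PD A.toO3 B.toO3) : Cob A B where
  toW4 := cyW B.toO3
  h1 := hz_cyl B.h1
  a := 1
  b := 0
  ki := φ.cx isOpen_Iio
  ko := (PD.refl B.toO3).cx isOpen_Ioi
  pi := φ.cy_pos isOpen_Iio
  po := (PD.refl B.toO3).cy_pos isOpen_Ioi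

/-- the action on classes -/
def PD.cl {A B : O3} (φ : PD A B) (t : B.L) : A.L :=
  t.pull (f := φ.cy isOpen_univ) (fun _ _ => (φ.cy isOpen_univ).ld trivial) (mapsTo_univ _ _)

theorem PD.pb {A B : O3} (φ : PD A B) (t : B.L) : Pb (φ.cy isOpen_univ) univ t (φ.cl t) := pb_pull _

theorem PD.cl_symm {A B : O3} (φ : PD A B) (s : A.L) : φ.cl (φ.symm.cl s) = s :=
  pb_unique (pb_congr (pb_comp (φ.symm.pb s) (φ.pb _) (mapsTo_univ _ _)) (f' := id)
    fun _ _ => .of_forall fun y => Prod.ext (φ.φ.symm_apply_apply y.1).symm rfl) pb_id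

/-- the bijection of the classes -/
def PD.eqv {A B : O3} (φ : PD A B) : A.L ≃ B.L := ⟨φ.symm.cl, φ.cl, φ.cl_symm, φ.symm.cl_symm⟩

theorem in_cyC (φ : PD A.toO3 B.toO3) (t : B.L) : (cyC φ).In t (φ.cl t) := pb_mono (φ.pb t) (subset_univ _)

theorem out_cyC (φ : PD A.toO3 B.toO3) (t : B.L) : (cyC φ).Out t t := pb_id

/-- the composite of two cylinders -/
def glC (φ : PD A.toO3 B.toO3) (ψ : PD B.toO3 C.toO3) (χ : PD A.toO3 C.toO3) :
    Gl (cyC φ).toW4 (cyC ψ).toW4 (cyC χ).toW4 (cyC φ).ko (cyC ψ).ki where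
  δ₁ := 0
  δ₂ := 0
  α := 0
  β := 1
  lt := one_pos
  hb := (add_zero _).le
  ha := (add_zero _).ge
  l := ⟨(ψ.cy isOpen_Iio).φ, (ψ.cy isOpen_Iio).src.trans (Set.ext fun p => by
      show p.2 < 1 ↔ p.2 + 0 < 1
      rw [add_zero]), (ψ.cy isOpen_Iio).tgt, fun _ _ => (add_zero _).symm⟩
  r := ⟨((PD.refl _).cy isOpen_Ioi).φ, ((PD.refl _).cy isOpen_Ioi).src.trans (Set.ext fun p => by
      show 0 < p.2 ↔ 0 < p.2 + 0
      rw [add_zero]), ((PD.refl _).cy isOpen_Ioi).tgt, fun _ _ => (add_zero _).symm⟩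
  pl := (ψ.cy_pos isOpen_univ).mono (subset_univ _)
  pr := ((PD.refl _).cy_pos isOpen_univ).mono (subset_univ _)
  ov _ _ _ := rfl

theorem cur_zero {W : W4} (h : HZ W.X.P.I 2 (univ : Set W.M)) (d : W.L) : Cur d 0 := by
  obtain ⟨D⟩ := d
  have h0 := D.ok.det.on
  obtain ⟨b, h1, h2, h3⟩ := (h _ (h0.cl_F isOpen_univ).neg).deg (h0.cl_F isOpen_univ).neg.dg
  refine ⟨D, rfl, _, h0.shift h1 h2, funext fun x => ?_⟩
  exact ((h0.F_shift isOpen_univ h1 trivial).trans (by rw [h3 x trivial]; simp)).symm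

/-! ### cobordisms of a scene -/

variable {S : Scene} {i j k : S.ι}

variable (S i j) in
/-- the cobordism `C` belongs to the scene -/
structure Kc (C : Cob (S.ob i) (S.ob j)) where
  c : S.κ i j
  e : S.cob c = C

variable (θ : Th S) {C₁ : Cob (S.ob i) (S.ob j)} {C₂ : Cob (S.ob j) (S.ob k)} {C₃ : Cob (S.ob i) (S.ob k)}

/-- the maps -/
def Kc.F (c : Kc S i j C₁) : C₁.L → (θ.H i).H →ₗ[K] (θ.H j).H := c.e ▸ θ.F c.c

theorem Kc.map0 (c : Kc S i j C₁) (h : HZ C₁.X.P.I 2 (univ : Set C₁.M)) {d s t x y} (a : C₁.In d s)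
    (b : C₁.Out d t) (hy : y ∈ (θ.H i).gr s x) : c.F θ d y ∈ (θ.H j).gr t x := by
  obtain ⟨c, rfl⟩ := c
  have := θ.map c d s t x y a b hy
  rwa [θ.deg c d (n := Empty) Empty.elim Empty.elim ∅ 0 0
    (Dr59.Lat.empty (S.cob c).ori isOpen_univ (empty_subset _) h) Cs.zero (cur_zero h d) (by simp [Dr59.ip]),
    add_zero] at this

theorem Kc.off (c : Kc S i j C₁) {d s s' x y} (a : C₁.In d s) (b : s' ≠ s) (hy : y ∈ (θ.H i).gr s' x) :
    c.F θ d y = 0 := by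
  obtain ⟨c, rfl⟩ := c
  exact θ.off c d s s' x y a b hy

theorem Kc.U (c : Kc S i j C₁) (d y) : c.F θ d ((θ.H i).U y) = (θ.H j).U (c.F θ d y) := by
  obtain ⟨c, rfl⟩ := c
  exact θ.U c d y

theorem Kc.comp (c₁ : Kc S i j C₁) (c₂ : Kc S j k C₂) (c₃ : Kc S i k C₃)
    (g : Gl C₁.toW4 C₂.toW4 C₃.toW4 C₁.ko C₂.ki) {d d₁ d₂} (a : Ag atBot (g.fl ∘ C₁.ki) C₃.ki)
    (b : Ag atTop (g.fr ∘ C₂.ko) C₃.ko) (h : g.Rs d d₁ d₂) : c₃.F θ d = c₂.F θ d₂ ∘ₗ c₁.F θ d₁ := by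
  obtain ⟨c₁, rfl⟩ := c₁
  obtain ⟨c₂, rfl⟩ := c₂
  obtain ⟨c₃, rfl⟩ := c₃
  exact θ.comp c₁ c₂ c₃ g d d₁ d₂ a b h

theorem Kc.id {C : Cob (S.ob i) (S.ob i)} (c : Kc S i i C)
    (φ : (S.ob i).cyl.P.M ≃ₘ^∞⟮(S.ob i).cyl.P.I, C.X.P.I⟯ C.M) {d s x y}
    (p : Pos (S.ob i).cyl.P.I C.X.P.I φ univ (pr (S.ob i).o oR) C.o) (a : Ag atBot φ C.ki) (b : Ag atTop φ C.ko)
    (h : C.In d s) (hy : y ∈ (θ.H i).gr s x) : c.F θ d y = y := by
  obtain ⟨c, rfl⟩ := c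
  exact θ.id c φ d s x y p a b h hy

variable {φ : PD (S.ob i).toO3 (S.ob j).toO3}

/-- the total map of a cylinder -/
def Kc.tot (c : Kc S i j (cyC φ)) : (θ.H i).H →ₗ[K] (θ.H j).H :=
  have := (S.ob j).fin
  have := Fintype.ofFinite (S.ob j).L
  ∑ t : (S.ob j).L, c.F θ t

theorem Kc.tot_eq (c : Kc S i j (cyC φ)) {t x y} (hy : y ∈ (θ.H i).gr (φ.cl t) x) : c.tot θ y = c.F θ t y := by
  refine (LinearMap.sum_apply _ _ _).trans ?_
  exact Finset.sum_eq_single t (fun t' _ h => c.off θ (in_cyC φ t') (fun e => h (φ.eqv.symm.injective e).symm) hy)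
    fun h => (h (@Finset.mem_univ _ (_) _)).elim

theorem Kc.tot_mem (c : Kc S i j (cyC φ)) {t x y} (hy : y ∈ (θ.H i).gr (φ.cl t) x) :
    c.tot θ y ∈ (θ.H j).gr t x :=
  (c.tot_eq θ hy).symm ▸ c.map0 θ (hz_cyl (S.ob j).h2) (in_cyC φ t) (out_cyC φ t) hy

theorem Kc.tot_tot (c : Kc S i j (cyC φ)) (c' : Kc S j i (cyC φ.symm)) (e : Kc S i i (cyC (PD.refl _))) (y) :
    c'.tot θ (c.tot θ y) = y := by
  have hy : y ∈ ⨆ p : _ × ℚ, (θ.H i).gr p.1 p.2 := (θ.H i).top ▸ Submodule.mem_top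
  induction hy using Submodule.iSup_induction' with
  | zero => simp
  | add _ _ _ _ a b => simp [a, b]
  | mem p y hy =>
    obtain ⟨s, x⟩ := p
    have h1 : y ∈ (θ.H i).gr (φ.cl (φ.symm.cl s)) x := (φ.cl_symm s).symm ▸ hy
    rw [c'.tot_eq θ (c.tot_mem θ h1), c.tot_eq θ h1, ← LinearMap.comp_apply,
      ← Kc.comp θ c c' e (glC φ φ.symm (PD.refl _)) (d := s)
        (ag_of_eq (.of_forall fun _ y => Prod.ext (φ.φ.symm_apply_apply y) rfl)) ag_refl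
        ⟨pb_mono (φ.symm.pb s) (subset_univ _), pb_id⟩]
    exact e.id θ (Diffeomorph.refl _ _ _) ((PD.refl _).cy_pos isOpen_univ) ag_refl ag_refl pb_id hy

/-- **R-ISO** -/
def hiso (c : Kc S i j (cyC φ)) (c' : Kc S j i (cyC φ.symm)) (e : Kc S i i (cyC (PD.refl _)))
    (e' : Kc S j j (cyC (PD.refl _))) : HIso (θ.H i) (θ.H j) where
  g := LinearEquiv.ofLinearMap (c.tot θ) (c'.tot θ) (LinearMap.ext (c'.tot_tot θ (φ := φ.symm) c e'))
    (LinearMap.ext (c.tot_tot θ c' e))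
  τ := φ.eqv
  map s _ _ hy := c.tot_mem θ ((φ.cl_symm s).symm ▸ hy)
  U y := (LinearMap.sum_apply _ _ _).trans ((Finset.sum_congr rfl fun t _ => c.U θ t y).trans
    ((map_sum _ _ _).symm.trans (congrArg _ (LinearMap.sum_apply _ _ _).symm)))

end Crest.Agent.X212.Sw87
end
end

-- ▼ part X212/Sw87/Base

/-!
# Row 212, layer S (helper87): the objects of the seam, statements

* `tK k` : the tube of a knot, with the sign `-1`; `Base k` : its fillings, and the exteriors of the meridians;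
* leaves `ObStmt`, `DifStmt`, `H1Stmt`, `LinkStmt`.
-/

set_option autoImplicit false
set_option linter.unusedSectionVars false

open Set Filter Topology Function
open scoped ContDiff Manifold
open Crest.Agent.X212.Bor5.T Crest.Agent.X212.Orx52
open Crest.Agent.X212.Dr59 (HZ)
open Crest.Agent.X212.Ext52 (KD)
open Crest.GeometryTopology.DehnSurgery (S3)
open Crest.Agent.X212.Nrm38 (Cos)
open Crest.Agent.X212.Rod53 (Z2 Loc Jr PM ofTube)
open Crest.Agent.X212.Lab56 (Cls Ref Good Pic0)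
open Crest.Agent.X212.Rw22 (Vx Ln vK vL δL SL Sg)
open Crest.Agent.X212.Bor5 (Sl sl14)
open Crest.Agent.X212.M (Mf)

noncomputable section

namespace Crest.Agent.X212.Sw87

/-- the tube of a knot, in the sphere with the opposite orientation -/
def tK (k : KD) : Tub where
  N := Mf.ofB 3 (𝓡 3) S3 (by simp)
  cpt := (inferInstance : CompactSpace S3)
  T := ofTube k.toTube
  o := -oS k.toTube
  ori := (oriOn (ori_oS k.toTube) _).neg
  σ := -1
  hσ := .inr rfl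
  pos := by simpa using (pos_τ k.toTube _).neg

/-- an exterior with the character `δ` -/
structure Xt (δ : Z2) : Type 1 where
  τ : Tub
  sg : τ.σ = -1
  ϑ : τ.N.M → Circle
  gd : Good τ.T ϑ δ
  cl : Nonempty (Cls (τ.N.I.prod 𝓘(ℝ, ℝ)) (univ : Set (τ.N.M × ℝ)))

theorem sl10 : Sl 1 0 := ⟨one_ne_zero, le_rfl, isCoprime_one_left⟩

theorem sl11 : Sl 1 1 := ⟨one_ne_zero, zero_le_one, isCoprime_one_left⟩

/-- the fillings of the knot `k`, and the exteriors of the meridians -/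
structure Base (k : KD) : Type 1 where
  ob : Vx → Q3
  f : ∀ i, Fo (tK k) (ob i).toO3 (vK i)
  pic : ∀ i, Pic0 (ob i).Y.I univ (f i).F.tb.Ex
  s0 : Sph (ob ⟨(1, 0), sl10⟩).toO3
  inj : Injective s0.π
  Λ : Ln → Q3
  lam : ∀ l, Nonempty (Sph (Λ l).toO3)
  X : ∀ l, Xt (δL l)
  g : ∀ l i, some i ∈ SL l → Fo (X l).τ (ob i).toO3 (vL l (some i))
  g0 : ∀ l, Fo (X l).τ (Λ l).toO3 (1, 0)
  picg : ∀ l i h, Pic0 (ob i).Y.I univ (g l i h).F.tb.Ex
  pic0 : ∀ l, Pic0 (Λ l).Y.I univ (g0 l).F.tb.Ex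
  mer : ∀ l i h w, (g l i h).F.it w = (f i).F.mer.τ w

/-- R-OB -/
def ObStmt : Prop := ∀ k : KD, Nonempty (Base k)

/-- R-DIF: positive diffeomorphisms of fillings -/
structure DifStmt : Prop where
  uniq : ∀ (τ : Tub) (A B : O3) (a b : Z2), Fo τ A a → Fo τ B b → PM a b → Nonempty (PD A B)
  cos : ∀ (k : KD) (A B : O3) (p q q' : ℤ), Fo (tK k) A (q, p) → Fo (tK k) B (q', p) → Cos k p q q' →
    Nonempty (PD A B)
  cab : ∀ (k : KD) (A B : O3), Fo (tK (Cab39.cable k)) A (1, 1) → Fo (tK k) B (4, 1) → Nonempty (PD A B)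

/-- R-H1 -/
def H1Stmt : Prop := ∀ (τ : Tub) (A : Q3) (a : Z2), Fo τ A.toO3 a → ∀ v, Loc v → (Jr v a).Nonempty →
  HZ (𝓡 4) 1 (univ : Set (τ.X v))

/-- R-LINK: the core of the meridian tube is `± a.1` times the core of the filling -/
def LinkStmt : Prop := ∃ η, Sg η ∧ ∀ (δ δ' : Z2) (X : Xt δ) (X' : Xt δ') {n N n' N' : ℕ}
  (R : Ref X.τ.T (Fin n) (Fin N)) (R' : Ref X'.τ.T (Fin n') (Fin N')) (A : Q3) (a a' : Z2) (f : Fo X.τ A.toO3 a)
  (f' : Fo X'.τ A.toO3 a'), (∀ w, f'.F.it w = f.F.mer.τ w) → ∀ s t m m', Lo R f s m → Lo R' f' s m' →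
    Lo R' f' t (m' + 2) → Lo R f t (m + 2 * η * a.1)

end Crest.Agent.X212.Sw87
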