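import Crest.Agent.X212.Cnt42.Gen
import Crest.Agent.X212.Cnt42.Main
import Crest.Agent.X212.Geo28.Fin
import Crest.Agent.X212.Sm10.Nat1
import Crest.Agent.X212.Nv5.Mtr
import Crest.Agent.X212.Geo28.As6
import Crest.Agent.X212.Fam33.Main
import Crest.Agent.X212.Bd44.Main
import Crest.Agent.X212.Sm10.Iso0
import Crest.Agent.X212.Emo56.Bl
import Crest.Agent.X212.Emo56.Trp
import Crest.Agent.X212.Emo56.GluA
import Crest.Agent.X212.Emo56.Glu
import Crest.Agent.X212.Sw87.MoR
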